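import Mathlib
import Vale.Agent.Lib.P243.helper18.TetraModel

/-!
# P243: the volume of the barycentric core of the standard simplex

`TCore τ` is the set of points of the standard simplex `Simp` (barycentric coordinates
`λ₀ = 1 - s - p - q, λ₁ = s, λ₂ = p, λ₃ = q`) with `λᵢ + λⱼ ≥ τ` for all pairs and
`λᵢ ≤ 1 - 2 τ` for all `i`.  We show `volume (TCore τ) ≥ (1 - 18 τ² - 20 τ³) volume Simp`.
-/

namespace Vale.Agent.Lib.P243.H44T

open MeasureTheory Set Vale.Agent.Lib.P243.H18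
open scoped Pointwise

/-- Volume of a translate of a scaled triangle. -/
lemma vol_vadd_smul_Tri (v : ℝ × ℝ) (r : ℝ) :
    volume (v +ᵥ (r • Tri)) = ENNReal.ofReal (r ^ 2) * volume Tri := by
  have hfr : Module.finrank ℝ (ℝ × ℝ) = 2 := by simp
  rw [measure_vadd, Measure.addHaar_smul, hfr, abs_of_nonneg (sq_nonneg _)]

lemma integral_min_sq {τ : ℝ} (h0 : 0 ≤ τ) (h1 : τ ≤ 1) :
    ∫ s in (0 : ℝ)..1, (min τ (1 - s)) ^ 2 = τ ^ 2 - 2 / 3 * τ ^ 3 := by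
  have hcont : Continuous fun s : ℝ => (min τ (1 - s)) ^ 2 := by fun_prop
  have hsplit := intervalIntegral.integral_add_adjacent_intervals (a := (0 : ℝ)) (b := 1 - τ)
    (c := 1) (f := fun s : ℝ => (min τ (1 - s)) ^ 2) (μ := volume)
    (hcont.intervalIntegrable _ _) (hcont.intervalIntegrable _ _)
  rw [← hsplit]
  have e1 : ∫ s in (0 : ℝ)..(1 - τ), (min τ (1 - s)) ^ 2 = τ ^ 2 * (1 - τ) := by
    have : ∫ s in (0 : ℝ)..(1 - τ), (min τ (1 - s)) ^ 2 = ∫ _s in (0 : ℝ)..(1 - τ), τ ^ 2 := by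
      apply intervalIntegral.integral_congr
      intro s hs
      rw [uIcc_of_le (by linarith)] at hs
      simp only
      rw [min_eq_left (by linarith [hs.2])]
    rw [this, intervalIntegral.integral_const, smul_eq_mul]
    ring
  have e2 : ∫ s in (1 - τ)..(1 : ℝ), (min τ (1 - s)) ^ 2 = τ ^ 3 / 3 := by
    have : ∫ s in (1 - τ)..(1 : ℝ), (min τ (1 - s)) ^ 2 = ∫ s in (1 - τ)..(1 : ℝ), (1 - s) ^ 2 := by
      apply intervalIntegral.integral_congr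
      intro s hs
      rw [uIcc_of_le (by linarith)] at hs
      simp only
      rw [min_eq_right (by linarith [hs.1])]
    rw [this]
    have h := intervalIntegral.integral_comp_sub_left (a := 1 - τ) (b := 1)
      (fun u : ℝ => u ^ 2) 1
    rw [h, integral_pow]
    ring
  rw [e1, e2]
  ring

lemma lintegral_min_sq {τ : ℝ} (h0 : 0 ≤ τ) (h1 : τ ≤ 1) :
    ∫⁻ s in Icc (0 : ℝ) 1, ENNReal.ofReal ((min τ (1 - s)) ^ 2) =
      ENNReal.ofReal (τ ^ 2 - 2 / 3 * τ ^ 3) := by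
  have hcont : Continuous fun s : ℝ => (min τ (1 - s)) ^ 2 := by fun_prop
  have hint : IntegrableOn (fun s : ℝ => (min τ (1 - s)) ^ 2) (Icc 0 1) :=
    hcont.continuousOn.integrableOn_compact isCompact_Icc
  rw [← ofReal_integral_eq_lintegral_ofReal hint
    (Filter.Eventually.of_forall fun s => sq_nonneg _),
    integral_Icc_eq_integral_Ioc, ← intervalIntegral.integral_of_le zero_le_one,
    integral_min_sq h0 h1]

/-- A measurable set over `s ∈ [0,1]` whose `s`-sections lie in translates of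
`min τ (1 - s) • Tri`. -/
lemma slab_le {τ : ℝ} (h0 : 0 ≤ τ) (h1 : τ ≤ 1) {A : Set (ℝ × ℝ × ℝ)} (hA : MeasurableSet A)
    (hs : ∀ z ∈ A, 0 ≤ z.1 ∧ z.1 ≤ 1)
    (hsec : ∀ s ∈ Icc (0 : ℝ) 1, ∃ v : ℝ × ℝ,
      Prod.mk s ⁻¹' A ⊆ v +ᵥ (min τ (1 - s) • Tri)) :
    volume A ≤ ENNReal.ofReal (τ ^ 2 - 2 / 3 * τ ^ 3) * volume Tri := by
  rw [Measure.volume_eq_prod ℝ (ℝ × ℝ), Measure.prod_apply hA]
  calc ∫⁻ s, volume (Prod.mk s ⁻¹' A)
      = ∫⁻ s in Icc (0 : ℝ) 1, volume (Prod.mk s ⁻¹' A) := by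
        rw [← lintegral_indicator measurableSet_Icc]
        congr 1
        funext s
        by_cases hsm : s ∈ Icc (0 : ℝ) 1
        · rw [indicator_of_mem hsm]
        · rw [indicator_of_notMem hsm]
          have : Prod.mk s ⁻¹' A = ∅ := by
            rw [eq_empty_iff_forall_notMem]
            intro y hy
            exact hsm (hs _ hy)
          rw [this, measure_empty]
    _ ≤ ∫⁻ s in Icc (0 : ℝ) 1, ENNReal.ofReal ((min τ (1 - s)) ^ 2) * volume Tri := by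
        apply setLIntegral_mono' measurableSet_Icc
        intro s hsm
        obtain ⟨v, hv⟩ := hsec s hsm
        calc volume (Prod.mk s ⁻¹' A) ≤ volume (v +ᵥ (min τ (1 - s) • Tri)) := measure_mono hv
          _ = _ := vol_vadd_smul_Tri v _
    _ = ENNReal.ofReal (τ ^ 2 - 2 / 3 * τ ^ 3) * volume Tri := by
        rw [lintegral_mul_const' _ _ Tri_lt_top.ne, lintegral_min_sq h0 h1]

/-! ### Membership in scaled triangles and simplices -/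

lemma mem_smul_Tri {r : ℝ} (hr : 0 ≤ r) {y : ℝ × ℝ} (h1 : 0 ≤ y.1) (h2 : 0 ≤ y.2)
    (h3 : y.1 + y.2 ≤ r) : y ∈ r • Tri := by
  rcases hr.eq_or_lt with h | h
  · have e1 : y.1 = 0 := by linarith
    have e2 : y.2 = 0 := by linarith
    refine ⟨(0, 0), ⟨le_rfl, le_rfl, by norm_num⟩, ?_⟩
    ext <;> simp [e1, e2]
  · refine ⟨r⁻¹ • y, ⟨?_, ?_, ?_⟩, ?_⟩
    · simpa using mul_nonneg (inv_nonneg.2 hr) h1
    · simpa using mul_nonneg (inv_nonneg.2 hr) h2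
    · have : r⁻¹ * y.1 + r⁻¹ * y.2 = r⁻¹ * (y.1 + y.2) := by ring
      simp only [Prod.smul_fst, Prod.smul_snd, smul_eq_mul]
      rw [this, inv_mul_le_iff₀ h]
      linarith
    · show r • r⁻¹ • y = y
      rw [smul_smul, mul_inv_cancel₀ h.ne', one_smul]

lemma mem_vadd_smul_Tri {r : ℝ} (hr : 0 ≤ r) (v : ℝ × ℝ) {y : ℝ × ℝ} (h1 : v.1 ≤ y.1)
    (h2 : v.2 ≤ y.2) (h3 : y.1 + y.2 ≤ r + v.1 + v.2) : y ∈ v +ᵥ (r • Tri) := by
  rw [mem_vadd_set_iff_neg_vadd_mem]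
  apply mem_smul_Tri hr
  · simp only [vadd_eq_add, Prod.fst_add, Prod.fst_neg]
    linarith
  · simp only [vadd_eq_add, Prod.snd_add, Prod.snd_neg]
    linarith
  · simp only [vadd_eq_add, Prod.fst_add, Prod.fst_neg, Prod.snd_add, Prod.snd_neg]
    linarith

lemma mem_smul_Simp {r : ℝ} (hr : 0 ≤ r) {z : ℝ × ℝ × ℝ} (h1 : 0 ≤ z.1) (h2 : 0 ≤ z.2.1)
    (h3 : 0 ≤ z.2.2) (h4 : z.1 + z.2.1 + z.2.2 ≤ r) : z ∈ r • Simp := by
  rcases hr.eq_or_lt with h | h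
  · have e1 : z.1 = 0 := by linarith
    have e2 : z.2.1 = 0 := by linarith
    have e3 : z.2.2 = 0 := by linarith
    refine ⟨(0, 0, 0), ⟨le_rfl, le_rfl, le_rfl, by norm_num⟩, ?_⟩
    ext <;> simp [e1, e2, e3]
  · refine ⟨r⁻¹ • z, ⟨?_, ?_, ?_, ?_⟩, ?_⟩
    · simpa using mul_nonneg (inv_nonneg.2 hr) h1
    · simpa using mul_nonneg (inv_nonneg.2 hr) h2
    · simpa using mul_nonneg (inv_nonneg.2 hr) h3
    · have : r⁻¹ * z.1 + r⁻¹ * z.2.1 + r⁻¹ * z.2.2 = r⁻¹ * (z.1 + z.2.1 + z.2.2) := by ring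
      simp only [Prod.smul_fst, Prod.smul_snd, smul_eq_mul]
      rw [this, inv_mul_le_iff₀ h]
      linarith
    · show r • r⁻¹ • z = z
      rw [smul_smul, mul_inv_cancel₀ h.ne', one_smul]

lemma mem_vadd_smul_Simp {r : ℝ} (hr : 0 ≤ r) (v : ℝ × ℝ × ℝ) {z : ℝ × ℝ × ℝ}
    (h1 : v.1 ≤ z.1) (h2 : v.2.1 ≤ z.2.1) (h3 : v.2.2 ≤ z.2.2)
    (h4 : z.1 + z.2.1 + z.2.2 ≤ r + v.1 + v.2.1 + v.2.2) : z ∈ v +ᵥ (r • Simp) := by
  rw [mem_vadd_set_iff_neg_vadd_mem]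
  apply mem_smul_Simp hr
  · simp only [vadd_eq_add, Prod.fst_add, Prod.fst_neg]
    linarith
  · simp only [vadd_eq_add, Prod.fst_add, Prod.fst_neg, Prod.snd_add, Prod.snd_neg]
    linarith
  · simp only [vadd_eq_add, Prod.snd_add, Prod.snd_neg]
    linarith
  · simp only [vadd_eq_add, Prod.fst_add, Prod.fst_neg, Prod.snd_add, Prod.snd_neg]
    linarith

lemma vol_vadd_smul_Simp (v : ℝ × ℝ × ℝ) {r : ℝ} (hr : 0 ≤ r) :
    volume (v +ᵥ (r • Simp)) = ENNReal.ofReal (r ^ 3) * volume Simp := by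
  have := haar_triple
  have hfr : Module.finrank ℝ (ℝ × ℝ × ℝ) = 3 := by simp
  rw [measure_vadd, Measure.addHaar_smul, hfr, abs_of_nonneg (pow_nonneg hr 3)]

/-! ### The six slabs -/

/-- `λ₂ + λ₃ ≤ τ`. -/
def S23 (τ : ℝ) : Set (ℝ × ℝ × ℝ) := {z | z ∈ Simp ∧ z.2.1 + z.2.2 ≤ τ}
/-- `λ₀ + λ₂ ≤ τ`. -/
def S02 (τ : ℝ) : Set (ℝ × ℝ × ℝ) := {z | z ∈ Simp ∧ 1 - z.1 - z.2.2 ≤ τ}
/-- `λ₀ + λ₃ ≤ τ`. -/
def S03 (τ : ℝ) : Set (ℝ × ℝ × ℝ) := {z | z ∈ Simp ∧ 1 - z.1 - z.2.1 ≤ τ}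
/-- `λ₀ + λ₁ ≤ τ`. -/
def S01 (τ : ℝ) : Set (ℝ × ℝ × ℝ) := {z | z ∈ Simp ∧ 1 - z.2.1 - z.2.2 ≤ τ}
/-- `λ₁ + λ₂ ≤ τ`. -/
def S12 (τ : ℝ) : Set (ℝ × ℝ × ℝ) := {z | z ∈ Simp ∧ z.1 + z.2.1 ≤ τ}
/-- `λ₁ + λ₃ ≤ τ`. -/
def S13 (τ : ℝ) : Set (ℝ × ℝ × ℝ) := {z | z ∈ Simp ∧ z.1 + z.2.2 ≤ τ}

lemma measurableSet_S23 (τ : ℝ) : MeasurableSet (S23 τ) := by
  have h : IsClosed {z : ℝ × ℝ × ℝ | z.2.1 + z.2.2 ≤ τ} := isClosed_le (by fun_prop) (by fun_prop)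
  exact measurableSet_Simp.inter h.measurableSet

lemma measurableSet_S02 (τ : ℝ) : MeasurableSet (S02 τ) := by
  have h : IsClosed {z : ℝ × ℝ × ℝ | 1 - z.1 - z.2.2 ≤ τ} := isClosed_le (by fun_prop) (by fun_prop)
  exact measurableSet_Simp.inter h.measurableSet

lemma measurableSet_S03 (τ : ℝ) : MeasurableSet (S03 τ) := by
  have h : IsClosed {z : ℝ × ℝ × ℝ | 1 - z.1 - z.2.1 ≤ τ} := isClosed_le (by fun_prop) (by fun_prop)
  exact measurableSet_Simp.inter h.measurableSet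

lemma measurableSet_S13 (τ : ℝ) : MeasurableSet (S13 τ) := by
  have h : IsClosed {z : ℝ × ℝ × ℝ | z.1 + z.2.2 ≤ τ} := isClosed_le (by fun_prop) (by fun_prop)
  exact measurableSet_Simp.inter h.measurableSet

lemma Simp_fst {z : ℝ × ℝ × ℝ} (hz : z ∈ Simp) : 0 ≤ z.1 ∧ z.1 ≤ 1 := by
  obtain ⟨h1, h2, h3, h4⟩ := hz
  exact ⟨h1, by linarith⟩

lemma vol_S23 {τ : ℝ} (h0 : 0 ≤ τ) (h1 : τ ≤ 1) :
    volume (S23 τ) ≤ ENNReal.ofReal (τ ^ 2 - 2 / 3 * τ ^ 3) * volume Tri := by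
  refine slab_le h0 h1 (measurableSet_S23 τ) (fun z hz => Simp_fst hz.1) (fun s hs => ?_)
  refine ⟨0, ?_⟩
  rintro y ⟨⟨-, k2, k3, k4⟩, k5⟩
  simp only at k2 k3 k4 k5
  refine mem_vadd_smul_Tri (le_min h0 (by linarith [hs.2])) 0 (by simpa using k2)
    (by simpa using k3) ?_
  simp only [Prod.fst_zero, Prod.snd_zero, add_zero]
  exact le_min k5 (by linarith)

lemma vol_S02 {τ : ℝ} (h0 : 0 ≤ τ) (h1 : τ ≤ 1) :
    volume (S02 τ) ≤ ENNReal.ofReal (τ ^ 2 - 2 / 3 * τ ^ 3) * volume Tri := by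
  refine slab_le h0 h1 (measurableSet_S02 τ) (fun z hz => Simp_fst hz.1) (fun s hs => ?_)
  rcases le_total τ (1 - s) with hc | hc
  · refine ⟨(0, 1 - τ - s), ?_⟩
    rintro y ⟨⟨-, k2, k3, k4⟩, k5⟩
    simp only at k2 k3 k4 k5
    rw [min_eq_left hc]
    exact mem_vadd_smul_Tri h0 _ k2 (by simp only; linarith) (by simp only; linarith)
  · refine ⟨0, ?_⟩
    rintro y ⟨⟨-, k2, k3, k4⟩, k5⟩
    simp only at k2 k3 k4 k5
    rw [min_eq_right hc]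
    refine mem_vadd_smul_Tri (by linarith [hs.2]) 0 (by simpa using k2) (by simpa using k3) ?_
    simp only [Prod.fst_zero, Prod.snd_zero, add_zero]
    linarith

lemma vol_S03 {τ : ℝ} (h0 : 0 ≤ τ) (h1 : τ ≤ 1) :
    volume (S03 τ) ≤ ENNReal.ofReal (τ ^ 2 - 2 / 3 * τ ^ 3) * volume Tri := by
  refine slab_le h0 h1 (measurableSet_S03 τ) (fun z hz => Simp_fst hz.1) (fun s hs => ?_)
  rcases le_total τ (1 - s) with hc | hc
  · refine ⟨(1 - τ - s, 0), ?_⟩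
    rintro y ⟨⟨-, k2, k3, k4⟩, k5⟩
    simp only at k2 k3 k4 k5
    rw [min_eq_left hc]
    exact mem_vadd_smul_Tri h0 _ (by simp only; linarith) k3 (by simp only; linarith)
  · refine ⟨0, ?_⟩
    rintro y ⟨⟨-, k2, k3, k4⟩, k5⟩
    simp only at k2 k3 k4 k5
    rw [min_eq_right hc]
    refine mem_vadd_smul_Tri (by linarith [hs.2]) 0 (by simpa using k2) (by simpa using k3) ?_
    simp only [Prod.fst_zero, Prod.snd_zero, add_zero]
    linarith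

/-! ### Coordinate swaps -/

/-- The swap of the last two coordinates preserves volume. -/
lemma mp_swap23 : MeasurePreserving (Prod.map (id : ℝ → ℝ) (Prod.swap : ℝ × ℝ → ℝ × ℝ))
    (volume : Measure (ℝ × ℝ × ℝ)) volume :=
  (MeasurePreserving.id (volume : Measure ℝ)).prod
    (Measure.measurePreserving_swap (μ := (volume : Measure ℝ)) (ν := (volume : Measure ℝ)))

/-- The swap of the first two coordinates. -/
def swap12 (z : ℝ × ℝ × ℝ) : ℝ × ℝ × ℝ := (z.2.1, z.1, z.2.2)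

/-- The swap of the first two coordinates preserves volume. -/
lemma mp_swap12 : MeasurePreserving swap12 (volume : Measure (ℝ × ℝ × ℝ)) volume := by
  have he : MeasurePreserving (MeasurableEquiv.prodAssoc : (ℝ × ℝ) × ℝ ≃ᵐ ℝ × ℝ × ℝ)
      (((volume : Measure ℝ).prod (volume : Measure ℝ)).prod (volume : Measure ℝ))
      ((volume : Measure ℝ).prod ((volume : Measure ℝ).prod (volume : Measure ℝ))) :=
    ⟨MeasurableEquiv.prodAssoc.measurable, Measure.prodAssoc_prod⟩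
  have hmid : MeasurePreserving (Prod.map (Prod.swap : ℝ × ℝ → ℝ × ℝ) (id : ℝ → ℝ))
      (((volume : Measure ℝ).prod (volume : Measure ℝ)).prod (volume : Measure ℝ))
      (((volume : Measure ℝ).prod (volume : Measure ℝ)).prod (volume : Measure ℝ)) :=
    (Measure.measurePreserving_swap (μ := (volume : Measure ℝ))
      (ν := (volume : Measure ℝ))).prod (MeasurePreserving.id (volume : Measure ℝ))
  have hcomp := he.comp (hmid.comp (he.symm MeasurableEquiv.prodAssoc))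
  exact hcomp

lemma vol_S13 {τ : ℝ} (h0 : 0 ≤ τ) (h1 : τ ≤ 1) :
    volume (S13 τ) ≤ ENNReal.ofReal (τ ^ 2 - 2 / 3 * τ ^ 3) * volume Tri := by
  have e : swap12 ⁻¹' (S23 τ) = S13 τ := by
    ext ⟨s, p, q⟩
    constructor
    · rintro ⟨⟨k1, k2, k3, k4⟩, k5⟩
      simp only [swap12] at k1 k2 k3 k4 k5
      exact ⟨⟨k2, k1, k3, by simp only; linarith⟩, k5⟩
    · rintro ⟨⟨k1, k2, k3, k4⟩, k5⟩
      simp only at k1 k2 k3 k4 k5
      exact ⟨⟨k2, k1, k3, by simp only [swap12]; linarith⟩, k5⟩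
  rw [← e, mp_swap12.measure_preimage (measurableSet_S23 τ).nullMeasurableSet]
  exact vol_S23 h0 h1

lemma vol_S01 {τ : ℝ} (h0 : 0 ≤ τ) (h1 : τ ≤ 1) :
    volume (S01 τ) ≤ ENNReal.ofReal (τ ^ 2 - 2 / 3 * τ ^ 3) * volume Tri := by
  have e : swap12 ⁻¹' (S02 τ) = S01 τ := by
    ext ⟨s, p, q⟩
    constructor
    · rintro ⟨⟨k1, k2, k3, k4⟩, k5⟩
      simp only [swap12] at k1 k2 k3 k4 k5
      exact ⟨⟨k2, k1, k3, by simp only; linarith⟩, k5⟩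
    · rintro ⟨⟨k1, k2, k3, k4⟩, k5⟩
      simp only at k1 k2 k3 k4 k5
      exact ⟨⟨k2, k1, k3, by simp only [swap12]; linarith⟩, k5⟩
  rw [← e, mp_swap12.measure_preimage (measurableSet_S02 τ).nullMeasurableSet]
  exact vol_S02 h0 h1

lemma vol_S12 {τ : ℝ} (h0 : 0 ≤ τ) (h1 : τ ≤ 1) :
    volume (S12 τ) ≤ ENNReal.ofReal (τ ^ 2 - 2 / 3 * τ ^ 3) * volume Tri := by
  have e : Prod.map (id : ℝ → ℝ) (Prod.swap : ℝ × ℝ → ℝ × ℝ) ⁻¹' (S13 τ) = S12 τ := by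
    ext ⟨s, p, q⟩
    constructor
    · rintro ⟨⟨k1, k2, k3, k4⟩, k5⟩
      simp only [Prod.map_apply, id, Prod.swap_prod_mk] at k1 k2 k3 k4 k5
      exact ⟨⟨k1, k3, k2, by simp only; linarith⟩, k5⟩
    · rintro ⟨⟨k1, k2, k3, k4⟩, k5⟩
      simp only at k1 k2 k3 k4 k5
      exact ⟨⟨k1, k3, k2, by simp only [Prod.map_apply, id, Prod.swap_prod_mk]; linarith⟩, k5⟩
  rw [← e, mp_swap23.measure_preimage (measurableSet_S13 τ).nullMeasurableSet]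
  exact vol_S13 h0 h1

/-! ### The core -/

/-- The barycentric core of the standard simplex: `λᵢ + λⱼ ≥ τ` for all pairs and
`λᵢ ≤ 1 - 2 τ` for all `i`, where `λ₀ = 1 - s - p - q`, `λ₁ = s`, `λ₂ = p`, `λ₃ = q`. -/
def TCore (τ : ℝ) : Set (ℝ × ℝ × ℝ) :=
  {z | z ∈ Simp ∧ τ ≤ 1 - z.2.1 - z.2.2 ∧ τ ≤ 1 - z.1 - z.2.2 ∧ τ ≤ 1 - z.1 - z.2.1 ∧
    τ ≤ z.1 + z.2.1 ∧ τ ≤ z.1 + z.2.2 ∧ τ ≤ z.2.1 + z.2.2 ∧
    2 * τ ≤ z.1 + z.2.1 + z.2.2 ∧ z.1 ≤ 1 - 2 * τ ∧ z.2.1 ≤ 1 - 2 * τ ∧ z.2.2 ≤ 1 - 2 * τ}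

lemma TCore_subset_Simp (τ : ℝ) : TCore τ ⊆ Simp := fun _ hz => hz.1

/-- Every point of the simplex lies in the core, in one of the six slabs or in one of the
four vertex caps. -/
lemma Simp_subset_cover {τ : ℝ} (h0 : 0 ≤ τ) :
    Simp ⊆ TCore τ ∪ S01 τ ∪ S02 τ ∪ S03 τ ∪ S12 τ ∪ S13 τ ∪ S23 τ ∪
      ((0 : ℝ × ℝ × ℝ) +ᵥ ((2 * τ) • Simp)) ∪
      (((1 - 2 * τ, 0, 0) : ℝ × ℝ × ℝ) +ᵥ ((2 * τ) • Simp)) ∪
      (((0, 1 - 2 * τ, 0) : ℝ × ℝ × ℝ) +ᵥ ((2 * τ) • Simp)) ∪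
      (((0, 0, 1 - 2 * τ) : ℝ × ℝ × ℝ) +ᵥ ((2 * τ) • Simp)) := by
  intro z hz
  have h2τ : 0 ≤ 2 * τ := by linarith
  obtain ⟨k1, k2, k3, k4⟩ := id hz
  by_cases c1 : 1 - z.2.1 - z.2.2 ≤ τ
  · exact Or.inl (Or.inl (Or.inl (Or.inl (Or.inl (Or.inl (Or.inl (Or.inl (Or.inl (Or.inr (⟨hz, c1⟩))))))))))
  by_cases c2 : 1 - z.1 - z.2.2 ≤ τ
  · exact Or.inl (Or.inl (Or.inl (Or.inl (Or.inl (Or.inl (Or.inl (Or.inl (Or.inr (⟨hz, c2⟩)))))))))
  by_cases c3 : 1 - z.1 - z.2.1 ≤ τ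
  · exact Or.inl (Or.inl (Or.inl (Or.inl (Or.inl (Or.inl (Or.inl (Or.inr (⟨hz, c3⟩))))))))
  by_cases c4 : z.1 + z.2.1 ≤ τ
  · exact Or.inl (Or.inl (Or.inl (Or.inl (Or.inl (Or.inl (Or.inr (⟨hz, c4⟩)))))))
  by_cases c5 : z.1 + z.2.2 ≤ τ
  · exact Or.inl (Or.inl (Or.inl (Or.inl (Or.inl (Or.inr (⟨hz, c5⟩))))))
  by_cases c6 : z.2.1 + z.2.2 ≤ τ
  · exact Or.inl (Or.inl (Or.inl (Or.inl (Or.inr (⟨hz, c6⟩)))))
  by_cases c7 : z.1 + z.2.1 + z.2.2 ≤ 2 * τ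
  · exact Or.inl (Or.inl (Or.inl (Or.inr (mem_vadd_smul_Simp h2τ 0 (by simpa using k1) (by simpa using k2) (by simpa using k3) (by simp only [Prod.fst_zero, Prod.snd_zero, add_zero]; exact c7)))))
  by_cases c8 : 1 - 2 * τ ≤ z.1
  · exact Or.inl (Or.inl (Or.inr (mem_vadd_smul_Simp h2τ (1 - 2 * τ, 0, 0) c8 k2 k3 (by simp only; linarith))))
  by_cases c9 : 1 - 2 * τ ≤ z.2.1
  · exact Or.inl (Or.inr (mem_vadd_smul_Simp h2τ (0, 1 - 2 * τ, 0) k1 c9 k3 (by simp only; linarith)))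
  by_cases c10 : 1 - 2 * τ ≤ z.2.2
  · exact Or.inr (mem_vadd_smul_Simp h2τ (0, 0, 1 - 2 * τ) k1 k2 c10 (by simp only; linarith))
  push Not at c1 c2 c3 c4 c5 c6 c7 c8 c9 c10
  exact Or.inl (Or.inl (Or.inl (Or.inl (Or.inl (Or.inl (Or.inl (Or.inl (Or.inl (Or.inl (⟨hz, c1.le, c2.le, c3.le, c4.le, c5.le, c6.le, c7.le, c8.le, c9.le, c10.le⟩))))))))))

/-- The core has at least the fraction `1 - 18 τ² - 20 τ³` of the volume of the simplex. -/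
theorem TCore_ge {τ : ℝ} (h0 : 0 ≤ τ) (h1 : τ ≤ 1 / 2) :
    ENNReal.ofReal (1 - 18 * τ ^ 2 - 20 * τ ^ 3) * volume Simp ≤ volume (TCore τ) := by
  have hτ1 : τ ≤ 1 := by linarith
  have h2τ : 0 ≤ 2 * τ := by linarith
  set a : ℝ := τ ^ 2 - 2 / 3 * τ ^ 3 with ha_def
  set b : ℝ := (2 * τ) ^ 3 with hb_def
  have ha : 0 ≤ a := by
    have : 0 ≤ τ ^ 2 * (1 - 2 / 3 * τ) := mul_nonneg (sq_nonneg τ) (by linarith)
    rw [ha_def]
    nlinarith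
  have hb : 0 ≤ b := pow_nonneg h2τ 3
  have U : ∀ (X Y : Set (ℝ × ℝ × ℝ)) (r : ENNReal), volume X ≤ r →
      volume (X ∪ Y) ≤ r + volume Y :=
    fun X Y r h => (measure_union_le X Y).trans (add_le_add h le_rfl)
  have hcov := measure_mono (μ := (volume : Measure (ℝ × ℝ × ℝ))) (Simp_subset_cover h0)
  have h := hcov.trans (U _ _ _ (U _ _ _ (U _ _ _ (U _ _ _ (U _ _ _ (U _ _ _ (U _ _ _
    (U _ _ _ (U _ _ _ (U _ _ _ (le_refl (volume (TCore τ)))))))))))))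
  have h' : volume Simp ≤ volume (TCore τ) +
      (6 * (ENNReal.ofReal a * volume Tri) + 4 * (ENNReal.ofReal b * volume Simp)) := by
    refine h.trans ?_
    have e : volume (TCore τ) +
        (6 * (ENNReal.ofReal a * volume Tri) + 4 * (ENNReal.ofReal b * volume Simp)) =
        volume (TCore τ) + ENNReal.ofReal a * volume Tri + ENNReal.ofReal a * volume Tri +
        ENNReal.ofReal a * volume Tri + ENNReal.ofReal a * volume Tri +
        ENNReal.ofReal a * volume Tri + ENNReal.ofReal a * volume Tri +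
        ENNReal.ofReal b * volume Simp + ENNReal.ofReal b * volume Simp +
        ENNReal.ofReal b * volume Simp + ENNReal.ofReal b * volume Simp := by ring
    rw [e]
    refine add_le_add (add_le_add (add_le_add (add_le_add (add_le_add (add_le_add (add_le_add
      (add_le_add (add_le_add (add_le_add le_rfl ?_) ?_) ?_) ?_) ?_) ?_) ?_) ?_) ?_) ?_
    · exact vol_S01 h0 hτ1
    · exact vol_S02 h0 hτ1
    · exact vol_S03 h0 hτ1
    · exact vol_S12 h0 hτ1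
    · exact vol_S13 h0 hτ1
    · exact vol_S23 h0 hτ1
    · exact (vol_vadd_smul_Simp _ h2τ).le
    · exact (vol_vadd_smul_Simp _ h2τ).le
    · exact (vol_vadd_smul_Simp _ h2τ).le
    · exact (vol_vadd_smul_Simp _ h2τ).le
  have hV := Simp_lt_top
  have hT := Tri_lt_top
  have hC : volume (TCore τ) < ⊤ := (measure_mono (TCore_subset_Simp τ)).trans_lt hV
  have hX : ENNReal.ofReal a * volume Tri ≠ ⊤ := ENNReal.mul_ne_top ENNReal.ofReal_ne_top hT.ne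
  have hY : ENNReal.ofReal b * volume Simp ≠ ⊤ := ENNReal.mul_ne_top ENNReal.ofReal_ne_top hV.ne
  have h6X : 6 * (ENNReal.ofReal a * volume Tri) ≠ ⊤ := ENNReal.mul_ne_top (by norm_num) hX
  have h4Y : 4 * (ENNReal.ofReal b * volume Simp) ≠ ⊤ := ENNReal.mul_ne_top (by norm_num) hY
  have hsum : 6 * (ENNReal.ofReal a * volume Tri) + 4 * (ENNReal.ofReal b * volume Simp) ≠ ⊤ :=
    ENNReal.add_ne_top.2 ⟨h6X, h4Y⟩
  have hRHS : volume (TCore τ) +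
      (6 * (ENNReal.ofReal a * volume Tri) + 4 * (ENNReal.ofReal b * volume Simp)) ≠ ⊤ :=
    ENNReal.add_ne_top.2 ⟨hC.ne, hsum⟩
  have h2 := ENNReal.toReal_mono hRHS h'
  rw [ENNReal.toReal_add hC.ne hsum, ENNReal.toReal_add h6X h4Y, ENNReal.toReal_mul,
    ENNReal.toReal_mul, ENNReal.toReal_mul, ENNReal.toReal_mul, ENNReal.toReal_ofReal ha,
    ENNReal.toReal_ofReal hb] at h2
  have h3 := ENNReal.toReal_mono hV.ne Simp_ge
  rw [ENNReal.toReal_mul, ENNReal.toReal_ofReal (by norm_num)] at h3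
  set v := (volume Simp).toReal with hv
  set t := (volume Tri).toReal with ht
  set c := (volume (TCore τ)).toReal with hc
  have hv0 : 0 ≤ v := ENNReal.toReal_nonneg
  have h6 : (6 : ENNReal).toReal = 6 := by simp
  have h4 : (4 : ENNReal).toReal = 4 := by simp
  rw [h6, h4] at h2
  have hat : a * t ≤ a * (3 * v) := mul_le_mul_of_nonneg_left (by linarith) ha
  have key : (1 - 18 * τ ^ 2 - 20 * τ ^ 3) * v ≤ c := by
    have e1 : a * (3 * v) = 3 * τ ^ 2 * v - 2 * τ ^ 3 * v := by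
      rw [ha_def]
      ring
    have e2 : b * v = 8 * τ ^ 3 * v := by
      rw [hb_def]
      ring
    nlinarith
  rcases le_or_gt (1 - 18 * τ ^ 2 - 20 * τ ^ 3) 0 with hk | hk
  · rw [ENNReal.ofReal_of_nonpos hk, zero_mul]
    exact zero_le
  · calc ENNReal.ofReal (1 - 18 * τ ^ 2 - 20 * τ ^ 3) * volume Simp
        = ENNReal.ofReal ((1 - 18 * τ ^ 2 - 20 * τ ^ 3) * v) := by
          rw [ENNReal.ofReal_mul hk.le, hv, ENNReal.ofReal_toReal hV.ne]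
      _ ≤ ENNReal.ofReal c := ENNReal.ofReal_le_ofReal key
      _ = volume (TCore τ) := by rw [hc, ENNReal.ofReal_toReal hC.ne]

end Vale.Agent.Lib.P243.H44T
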